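import Mathlib.Analysis.Normed.Module.HahnBanach
import Mathlib.Analysis.InnerProductSpace.PiL2
import Mathlib.Analysis.SpecialFunctions.Pow.Real
import Mathlib.Analysis.MeanInequalitiesPow
import Mathlib.Algebra.BigOperators.Expect

/-!
Cotype of a space and of its dual against unconditional sums of operators of small rank.
-/

namespace Vale.Agent.P111

open Finset
open scoped BigOperators

/-- The real number attached to a sign. -/
def sgn (b : Bool) : ℝ := cond b 1 (-1)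

lemma abs_sgn (b : Bool) : |sgn b| = 1 := by cases b <;> simp [sgn]

/-- The inequality `(∑ ‖y i‖ ^ q) ^ (1 / q) ≤ C (E ‖∑ ε i • y i‖ ^ 2) ^ (1 / 2)`. -/
def HasCotype (Y : Type*) [SeminormedAddCommGroup Y] [Module ℝ Y] (q C : ℝ) : Prop :=
  ∀ (s : ℕ) (y : Fin s → Y), (∑ i, ‖y i‖ ^ q) ^ (1 / q) ≤
    C * Real.sqrt ((∑ ε : Fin s → Bool, ‖∑ i, sgn (ε i) • y i‖ ^ 2) / 2 ^ s)

lemma HasCotype.sum_le {Y : Type*} [SeminormedAddCommGroup Y] [Module ℝ Y] {q C M : ℝ}
    (h : HasCotype Y q C) (hq : 1 ≤ q) (hC : 0 ≤ C) (hM : 0 ≤ M) {s : ℕ} (hs : 0 < s)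
    (y : Fin s → Y) (hy : ∀ ε : Fin s → Bool, ‖∑ i, sgn (ε i) • y i‖ ≤ M) :
    ∑ i, ‖y i‖ ≤ (s : ℝ) / (s : ℝ) ^ (1 / q) * (C * M) := by
  have hS : (∑ i, ‖y i‖ ^ q) ^ (1 / q) ≤ C * M := by
    refine (h s y).trans (mul_le_mul_of_nonneg_left ?_ hC)
    rw [Real.sqrt_le_left hM, div_le_iff₀ (by positivity)]
    calc (∑ ε : Fin s → Bool, ‖∑ i, sgn (ε i) • y i‖ ^ 2)
        ≤ ∑ _ε : Fin s → Bool, M ^ 2 :=
          sum_le_sum fun ε _ => pow_le_pow_left₀ (norm_nonneg _) (hy ε) 2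
      _ = M ^ 2 * 2 ^ s := by simp [mul_comm]
  have h1 : (∑ i, ‖y i‖) ^ q ≤ (s : ℝ) ^ (q - 1) * ∑ i, ‖y i‖ ^ q := by
    have := Real.rpow_sum_le_const_mul_sum_rpow (Finset.univ) (fun i => ‖y i‖) hq
    simpa using this
  have hq0 : 0 < q := by linarith
  have hsum : 0 ≤ ∑ i, ‖y i‖ := sum_nonneg fun i _ => norm_nonneg _
  have h2 := Real.rpow_le_rpow (Real.rpow_nonneg hsum q) h1 (by positivity : 0 ≤ 1 / q)
  rw [← Real.rpow_mul hsum, mul_one_div, div_self hq0.ne', Real.rpow_one,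
    Real.mul_rpow (by positivity) (sum_nonneg fun i _ => Real.rpow_nonneg (norm_nonneg _) _),
    ← Real.rpow_mul (by positivity)] at h2
  refine h2.trans ?_
  have e : (q - 1) * (1 / q) = 1 - 1 / q := by field_simp
  rw [e, Real.rpow_sub (by exact_mod_cast hs), Real.rpow_one]
  exact mul_le_mul_of_nonneg_left hS (by positivity)

variable {X : Type*} [NormedAddCommGroup X] [NormedSpace ℝ X] {ι : Type*} [Fintype ι]

/-- Every signed sum of the operators has norm at most `lam`. -/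
def SignBounded (T : ι → X →L[ℝ] X) (lam : ℝ) : Prop :=
  ∀ (σ : ι → Bool) (x : X), ‖∑ j, sgn (σ j) • T j x‖ ≤ lam * ‖x‖

lemma SignBounded.sum_abs_le {T : ι → X →L[ℝ] X} {lam : ℝ} (h : SignBounded T lam)
    {φ : X →L[ℝ] ℝ} (hφ : ‖φ‖ ≤ 1) (x : X) : ∑ j, |φ (T j x)| ≤ lam * ‖x‖ := by
  set σ : ι → Bool := fun j => decide (0 ≤ φ (T j x))
  have e : ∀ j, sgn (σ j) * φ (T j x) = |φ (T j x)| := fun j => by
    rcases le_total 0 (φ (T j x)) with hp | hp
    · simp [σ, sgn, hp, abs_of_nonneg hp]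
    · rcases hp.eq_or_lt with hz | hn
      · simp [hz]
      · simp [σ, sgn, not_le.2 hn, abs_of_neg hn]
  calc ∑ j, |φ (T j x)| = φ (∑ j, sgn (σ j) • T j x) := by simp [e]
    _ ≤ ‖φ (∑ j, sgn (σ j) • T j x)‖ := Real.le_norm_self _
    _ ≤ ‖φ‖ * ‖∑ j, sgn (σ j) • T j x‖ := φ.le_opNorm _
    _ ≤ 1 * (lam * ‖x‖) := mul_le_mul hφ (h σ x) (norm_nonneg _) zero_le_one
    _ = lam * ‖x‖ := one_mul _

lemma SignBounded.contract {T : ι → X →L[ℝ] X} {lam : ℝ} (h : SignBounded T lam)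
    {c : ι → ℝ} (hc : ∀ j, |c j| ≤ 1) (x : X) : ‖∑ j, c j • T j x‖ ≤ lam * ‖x‖ := by
  obtain ⟨φ, hφ, hφe⟩ := exists_dual_vector'' ℝ (∑ j, c j • T j x)
  calc ‖∑ j, c j • T j x‖ = φ (∑ j, c j • T j x) := by simpa using hφe.symm
    _ = ∑ j, c j * φ (T j x) := by simp
    _ ≤ ∑ j, |φ (T j x)| := sum_le_sum fun j _ =>
        (le_abs_self _).trans (by
          rw [abs_mul]; exact mul_le_of_le_one_left (abs_nonneg _) (hc j))
    _ ≤ lam * ‖x‖ := h.sum_abs_le hφ x

variable {n : ℕ}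

lemma sum_sgn_mul (i k : Fin n) :
    ∑ θ : Fin n → Bool, sgn (θ i) * sgn (θ k) = if i = k then (2 : ℝ) ^ n else 0 := by
  classical
  split_ifs with h
  · subst h
    have : ∀ b, sgn b * sgn b = 1 := fun b => by cases b <;> simp [sgn]
    simp [this]
  · have e := Equiv.sum_comp (Equiv.piCongrRight fun m : Fin n =>
        if m = i then Equiv.swap true false else Equiv.refl Bool)
      (fun θ : Fin n → Bool => sgn (θ i) * sgn (θ k))
    have hs : ∀ b, sgn (Equiv.swap true false b) = -sgn b := fun b => by cases b <;> simp [sgn]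
    have e' : ∑ θ : Fin n → Bool, -(sgn (θ i) * sgn (θ k)) = ∑ θ : Fin n → Bool, sgn (θ i) * sgn (θ k) := by
      rw [← e]
      refine sum_congr rfl fun θ _ => ?_
      simp [Equiv.piCongrRight, Ne.symm h, hs]
    rw [sum_neg_distrib] at e'
    linarith

/-- The Euclidean size of the coefficients of an operator on the vectors, seen by a functional. -/
noncomputable def quadSize (S : X →L[ℝ] X) (x : Fin n → X) (φ : X →L[ℝ] ℝ) : ℝ :=
  Real.sqrt (∑ k, φ (S (x k)) ^ 2)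

/-- For an operator of rank at most `d` the random signed sum is dominated by the quadratic size
up to a factor whose second moment is at most `d`. -/
lemma exists_dom (S : X →L[ℝ] X) (x : Fin n → X) {d : ℕ}
    [FiniteDimensional ℝ (LinearMap.range S.toLinearMap)]
    (hd : Module.finrank ℝ (LinearMap.range S.toLinearMap) ≤ d) :
    ∃ M : (Fin n → Bool) → ℝ, (∀ θ, 0 ≤ M θ) ∧ (∑ θ, M θ ^ 2) ≤ 2 ^ n * (d : ℝ) ∧
      ∀ θ (φ : X →L[ℝ] ℝ), |φ (S (∑ k, sgn (θ k) • x k))| ≤ M θ * quadSize S x φ := by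
  classical
  set R := LinearMap.range S.toLinearMap
  let A : Module.Dual ℝ R →ₗ[ℝ] EuclideanSpace ℝ (Fin n) :=
    { toFun := fun ψ => WithLp.toLp 2 fun k => ψ ⟨S (x k), LinearMap.mem_range_self _ _⟩
      map_add' := fun a b => by ext k; simp
      map_smul' := fun a b => by ext k; simp }
  set V := LinearMap.range A
  let b := stdOrthonormalBasis ℝ V
  have hV : Module.finrank ℝ V ≤ d :=
    ((LinearMap.finrank_range_le A).trans (le_of_eq Subspace.dual_finrank_eq)).trans hd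
  let z : (Fin n → Bool) → EuclideanSpace ℝ (Fin n) := fun θ => WithLp.toLp 2 fun k => sgn (θ k)
  let co : (Fin n → Bool) → Fin (Module.finrank ℝ V) → ℝ :=
    fun θ i => ∑ k, sgn (θ k) * (b i : EuclideanSpace ℝ (Fin n)) k
  refine ⟨fun θ => Real.sqrt (∑ i, co θ i ^ 2), fun θ => Real.sqrt_nonneg _, ?_, ?_⟩
  · have hco : ∀ i, ∑ θ, co θ i ^ 2 = 2 ^ n := by
      intro i
      have hn : ∑ k, (b i : EuclideanSpace ℝ (Fin n)) k ^ 2 = 1 := by
        rw [← EuclideanSpace.real_norm_sq_eq, Submodule.norm_coe, b.orthonormal.1 i, one_pow]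
      calc ∑ θ, co θ i ^ 2
          = ∑ θ : Fin n → Bool, ∑ k, ∑ l, (sgn (θ k) * sgn (θ l)) *
              ((b i : EuclideanSpace ℝ (Fin n)) k * (b i : EuclideanSpace ℝ (Fin n)) l) := by
            refine sum_congr rfl fun θ _ => ?_
            simp only [co, sq, Finset.sum_mul, Finset.mul_sum]
            exact sum_congr rfl fun k _ => sum_congr rfl fun l _ => by ring
        _ = ∑ k, ∑ l, (∑ θ : Fin n → Bool, sgn (θ k) * sgn (θ l)) *
              ((b i : EuclideanSpace ℝ (Fin n)) k * (b i : EuclideanSpace ℝ (Fin n)) l) := by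
            rw [sum_comm]
            refine sum_congr rfl fun k _ => ?_
            rw [sum_comm]
            exact sum_congr rfl fun l _ => (Finset.sum_mul _ _ _).symm
        _ = ∑ k, 2 ^ n * (b i : EuclideanSpace ℝ (Fin n)) k ^ 2 := by
            simp [sum_sgn_mul, sq]
        _ = 2 ^ n := by rw [← mul_sum, hn, mul_one]
    calc ∑ θ, Real.sqrt (∑ i, co θ i ^ 2) ^ 2 = ∑ θ, ∑ i, co θ i ^ 2 :=
          sum_congr rfl fun θ _ => Real.sq_sqrt (sum_nonneg fun i _ => sq_nonneg _)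
      _ = ∑ i : Fin (Module.finrank ℝ V), (2 : ℝ) ^ n := by rw [sum_comm]; simp [hco]
      _ ≤ 2 ^ n * (d : ℝ) := by
          rw [sum_const, card_univ, Fintype.card_fin, nsmul_eq_mul, mul_comm]
          exact mul_le_mul_of_nonneg_left (by exact_mod_cast hV) (by positivity)
  · intro θ φ
    set a : V := ⟨A (φ.toLinearMap.domRestrict R), LinearMap.mem_range_self _ _⟩ with ha
    have hak : ∀ k, (a : EuclideanSpace ℝ (Fin n)) k = φ (S (x k)) := fun k => rfl
    have hrep : ∀ k, φ (S (x k)) = ∑ i, b.repr a i * (b i : EuclideanSpace ℝ (Fin n)) k := by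
      intro k
      rw [← hak k]
      conv_lhs => rw [← b.sum_repr a]
      simp
    have hnorm : quadSize S x φ = Real.sqrt (∑ i, b.repr a i ^ 2) := by
      rw [quadSize, ← EuclideanSpace.real_norm_sq_eq (b.repr a), LinearIsometryEquiv.norm_map,
        ← Submodule.norm_coe, EuclideanSpace.real_norm_sq_eq]
      simp [hak]
    have he : φ (S (∑ k, sgn (θ k) • x k)) = ∑ i, co θ i * b.repr a i := by
      simp only [map_sum, map_smul, smul_eq_mul, co, hrep, Finset.mul_sum, Finset.sum_mul]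
      rw [sum_comm]
      exact sum_congr rfl fun i _ => sum_congr rfl fun k _ => by ring
    rw [he, hnorm, ← Real.sqrt_mul (sum_nonneg fun i _ => sq_nonneg _)]
    exact Real.abs_le_sqrt (sum_mul_sq_le_sq_mul_sq _ _ _)

end Vale.Agent.P111
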