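import Vale.Agent.P111.Basic

/-!
The main estimate: an `ell_1`-like family forces the rank of the pieces to grow.
-/

namespace Vale.Agent.P111

open Finset
open scoped BigOperators

lemma expect_eval {α κ : Type*} [Fintype α] [Nonempty α] [Fintype κ] [DecidableEq κ] (l : κ)
    (f : α → ℝ) : (𝔼 Θ : κ → α, f (Θ l)) = 𝔼 a, f a := by
  rw [Fintype.expect_equiv (Equiv.piSplitAt l fun _ => α) (fun Θ : κ → α => f (Θ l))
      (fun z => f z.1) (fun _ => rfl), ← univ_product_univ, expect_product]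
  simp [expect_const]

lemma expect_eval_mul {α κ : Type*} [Fintype α] [Nonempty α] [Fintype κ] [DecidableEq κ] {l m : κ}
    (hlm : m ≠ l) (f h : α → ℝ) :
    (𝔼 Θ : κ → α, f (Θ l) * h (Θ m)) = (𝔼 a, f a) * 𝔼 a, h a := by
  rw [Fintype.expect_equiv (Equiv.piSplitAt l fun _ => α) (fun Θ : κ → α => f (Θ l) * h (Θ m))
      (fun z => f z.1 * h (z.2 ⟨m, hlm⟩)) (fun Θ => rfl), ← univ_product_univ, expect_product]
  simp only [← mul_expect, expect_eval (⟨m, hlm⟩ : {j // j ≠ l}) h, ← expect_mul]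

lemma one_sub_sum_le_prod {κ : Type*} (s : Finset κ) (a : κ → ℝ) (h0 : ∀ i, 0 ≤ a i)
    (h1 : ∀ i, a i ≤ 1) : 1 - ∑ i ∈ s, a i ≤ ∏ i ∈ s, (1 - a i) := by
  classical
  induction s using Finset.induction with
  | empty => simp
  | insert i s hi ih =>
    rw [sum_insert hi, prod_insert hi]
    have := mul_le_mul_of_nonneg_left ih (sub_nonneg.2 (h1 i))
    nlinarith [mul_nonneg (h0 i) (sum_nonneg fun j (_ : j ∈ s) => h0 j)]

variable {X : Type*} [NormedAddCommGroup X] [NormedSpace ℝ X] {ι : Type*} [Fintype ι] {n : ℕ}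

/-- The part of the norming functionals carried by atypical signs is small, by cotype of `X`. -/
lemma big_part_le {q C lam : ℝ} (hX : HasCotype X q C) (hq : 1 ≤ q) (hC : 0 ≤ C) (hl : 0 ≤ lam)
    {T : ι → X →L[ℝ] X} (hT : SignBounded T lam) {x : Fin n → X} (hx : ∀ k, ‖x k‖ ≤ 1)
    (φ : (Fin n → Bool) → X →L[ℝ] ℝ) (hφ : ∀ θ, ‖φ θ‖ ≤ 1)
    (I : ι → (Fin n → Bool) → ℝ) (hI0 : ∀ j θ, 0 ≤ I j θ) (hI1 : ∀ j θ, I j θ ≤ 1)
    {N : ℕ} (hN : 0 < N) (hp : ∀ j, (N : ℝ) * 𝔼 θ, I j θ ≤ 1 / 2) :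
    (𝔼 θ, ∑ j, I j θ * |φ θ (T j (∑ k, sgn (θ k) • x k))|) ≤
      2 * C * lam * n / (N : ℝ) ^ (1 / q) := by
  classical
  set S : (Fin n → Bool) → X := fun θ => ∑ k, sgn (θ k) • x k with hS
  set g : ι → (Fin n → Bool) → ℝ := fun j θ => I j θ * |φ θ (T j (S θ))| with hg
  have hg0 : ∀ j θ, 0 ≤ g j θ := fun j θ => mul_nonneg (hI0 j θ) (abs_nonneg _)
  set Φ := 𝔼 θ, ∑ j, g j θ with hΦ
  show Φ ≤ _
  have hK : ∀ Θ : Fin N → Fin n → Bool,
      ∑ l, ∑ j, (g j (Θ l) - ∑ m ∈ univ.filter (· < l), g j (Θ l) * I j (Θ m)) ≤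
        (N : ℝ) / (N : ℝ) ^ (1 / q) * (C * (lam * n)) := by
    intro Θ
    let w : Fin N → ι → ℝ := fun l j => I j (Θ l) * ∏ m ∈ univ.filter (· < l), (1 - I j (Θ m))
    have hw0 : ∀ l j, 0 ≤ w l j := fun l j =>
      mul_nonneg (hI0 _ _) (prod_nonneg fun m _ => sub_nonneg.2 (hI1 _ _))
    have hw1 : ∀ j, ∑ l, w l j ≤ 1 := fun j => by
      have h := Finset.prod_one_sub_ordered (univ : Finset (Fin N)) fun l => I j (Θ l)
      have h0 : 0 ≤ ∏ l : Fin N, (1 - I j (Θ l)) := prod_nonneg fun m _ => sub_nonneg.2 (hI1 _ _)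
      rw [h] at h0
      simpa [w] using h0
    let σ : Fin N → ι → ℝ := fun l j => if 0 ≤ φ (Θ l) (T j (S (Θ l))) then 1 else -1
    have hσ : ∀ l j, |σ l j| = 1 := fun l j => by simp only [σ]; split_ifs <;> simp
    let v : Fin N → X := fun l => ∑ j, (w l j * σ l j) • T j (S (Θ l))
    have h1 : ∀ l, ∑ j, (g j (Θ l) - ∑ m ∈ univ.filter (· < l), g j (Θ l) * I j (Θ m)) ≤ ‖v l‖ := by
      intro l
      have e : φ (Θ l) (v l) = ∑ j, w l j * |φ (Θ l) (T j (S (Θ l)))| := by
        simp only [v, map_sum, map_smul, smul_eq_mul, mul_assoc]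
        refine sum_congr rfl fun j _ => ?_
        congr 1
        simp only [σ]
        split_ifs with h
        · rw [one_mul, abs_of_nonneg h]
        · rw [neg_one_mul, abs_of_neg (not_le.1 h)]
      have hb : φ (Θ l) (v l) ≤ ‖v l‖ :=
        ((Real.le_norm_self _).trans ((φ (Θ l)).le_opNorm _)).trans
          (mul_le_of_le_one_left (norm_nonneg _) (hφ _))
      refine le_trans ?_ hb
      rw [e]
      refine sum_le_sum fun j _ => ?_
      have := mul_le_mul_of_nonneg_left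
        (one_sub_sum_le_prod (univ.filter (· < l)) (fun m => I j (Θ m)) (fun m => hI0 _ _) fun m => hI1 _ _)
        (hg0 j (Θ l))
      simp only [hg, w, mul_sub, mul_one, mul_sum] at this ⊢
      linarith
    have h2 : ∀ s : Fin N → Bool, ‖∑ l, sgn (s l) • v l‖ ≤ lam * n := by
      intro s
      have e : ∑ l, sgn (s l) • v l =
          ∑ k, ∑ j, (∑ l, sgn (s l) * (w l j * σ l j) * sgn (Θ l k)) • T j (x k) := by
        simp only [v, hS, map_sum, map_smul, smul_sum, smul_smul, sum_smul]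
        refine sum_comm.trans (Eq.trans ?_ sum_comm)
        exact sum_congr rfl fun j _ => sum_comm.trans
          (sum_congr rfl fun k _ => sum_congr rfl fun l _ => by ring_nf)
      rw [e]
      refine (norm_sum_le _ _).trans ?_
      calc ∑ k, ‖∑ j, (∑ l, sgn (s l) * (w l j * σ l j) * sgn (Θ l k)) • T j (x k)‖
          ≤ ∑ _k : Fin n, lam := sum_le_sum fun k _ => by
            refine (hT.contract (fun j => ?_) (x k)).trans (mul_le_of_le_one_right hl (hx k))
            refine (abs_sum_le_sum_abs _ _).trans ((sum_le_sum fun l _ => ?_).trans (hw1 j))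
            simp [abs_mul, abs_sgn, hσ, abs_of_nonneg (hw0 l j)]
        _ = lam * n := by simp [mul_comm]
    exact (sum_le_sum fun l _ => h1 l).trans
      (hX.sum_le hq hC (mul_nonneg hl n.cast_nonneg) hN v h2)
  have hm : ∀ l : Fin N, Φ / 2 ≤ 𝔼 Θ : Fin N → Fin n → Bool,
      ∑ j, (g j (Θ l) - ∑ m ∈ univ.filter (· < l), g j (Θ l) * I j (Θ m)) := by
    intro l
    rw [hΦ, expect_sum_comm, expect_sum_comm, sum_div]
    refine sum_le_sum fun j _ => ?_
    rw [expect_sub_distrib, expect_eval l (g j), expect_sum_comm]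
    have hle : ∑ m ∈ univ.filter (· < l), (𝔼 Θ : Fin N → Fin n → Bool, g j (Θ l) * I j (Θ m)) ≤
        (𝔼 θ, g j θ) * (1 / 2) := by
      rw [sum_congr rfl fun m hm => expect_eval_mul (ne_of_lt (mem_filter.1 hm).2) (g j) (I j),
        sum_const, nsmul_eq_mul, ← mul_assoc, mul_comm ((univ.filter (· < l)).card : ℝ), mul_assoc]
      refine mul_le_mul_of_nonneg_left ((mul_le_mul_of_nonneg_right ?_
        (expect_nonneg fun θ _ => hI0 j θ)).trans (hp j)) (expect_nonneg fun θ _ => hg0 j θ)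
      exact_mod_cast (card_le_univ _).trans (Fintype.card_fin N).le
    linarith
  have hE : (𝔼 Θ : Fin N → Fin n → Bool,
      ∑ l, ∑ j, (g j (Θ l) - ∑ m ∈ univ.filter (· < l), g j (Θ l) * I j (Θ m))) ≤
        (N : ℝ) / (N : ℝ) ^ (1 / q) * (C * (lam * n)) :=
    expect_le univ_nonempty fun Θ _ => hK Θ
  rw [expect_sum_comm] at hE
  have h3 := (sum_le_sum fun l _ => hm l).trans hE
  rw [sum_const, card_univ, Fintype.card_fin, nsmul_eq_mul] at h3
  have hNr : (0 : ℝ) < N := by exact_mod_cast hN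
  rw [mul_div_assoc'] at h3
  rw [le_div_iff₀ (by positivity)]
  have h4 : (N : ℝ) * Φ / 2 * (N : ℝ) ^ (1 / q) ≤ N * (C * (lam * n)) := by
    have := mul_le_mul_of_nonneg_right h3 (Real.rpow_nonneg hNr.le (1 / q))
    have e : (N : ℝ) / (N : ℝ) ^ (1 / q) * (C * (lam * n)) * (N : ℝ) ^ (1 / q) = N * (C * (lam * n)) := by
      field_simp
    rw [e] at this
    linarith
  nlinarith

/-- The quadratic sizes are small, by cotype of the dual space. -/
lemma sum_quadSize_le {r D lam : ℝ} (hD : HasCotype (X →L[ℝ] ℝ) r D) (hr : 1 ≤ r) (hD0 : 0 ≤ D)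
    (hl : 0 ≤ lam) {T : ι → X →L[ℝ] X} (hT : SignBounded T lam) {x : Fin n → X}
    (hx : ∀ k, ‖x k‖ ≤ 1) (hn : 0 < n) {φ : X →L[ℝ] ℝ} (hφ : ‖φ‖ ≤ 1) :
    (∑ j, quadSize (T j) x φ) ^ 2 ≤ (n : ℝ) / (n : ℝ) ^ (1 / r) * (D * lam) * (lam * n) := by
  classical
  haveI : Nonempty (Fin n) := ⟨⟨0, hn⟩⟩
  choose kk hkk using fun j : ι =>
    exists_max_image (univ : Finset (Fin n)) (fun k => |φ (T j (x k))|) univ_nonempty
  set a : ι → ℝ := fun j => |φ (T j (x (kk j)))| with ha
  set s : ι → ℝ := fun j => ∑ k, |φ (T j (x k))| with hs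
  have hB : ∀ j, quadSize (T j) x φ ≤ Real.sqrt (a j * s j) := fun j => by
    refine Real.sqrt_le_sqrt ?_
    rw [hs, mul_sum]
    refine sum_le_sum fun k _ => ?_
    rw [← sq_abs, sq]
    exact mul_le_mul_of_nonneg_right ((hkk j).2 k (mem_univ _)) (abs_nonneg _)
  have hstot : ∑ j, s j ≤ lam * n := by
    rw [hs, sum_comm]
    calc ∑ k, ∑ j, |φ (T j (x k))| ≤ ∑ _k : Fin n, lam :=
          sum_le_sum fun k _ => (hT.sum_abs_le hφ (x k)).trans (mul_le_of_le_one_right hl (hx k))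
      _ = lam * n := by simp [mul_comm]
  let co : Fin n → ι → ℝ := fun k j =>
    if kk j = k then (if 0 ≤ φ (T j (x k)) then 1 else -1) else 0
  let y : Fin n → X →L[ℝ] ℝ := fun k => φ.comp (∑ j, co k j • T j)
  have hy : ∀ k, ∑ j ∈ univ.filter (fun j => kk j = k), a j ≤ ‖y k‖ := fun k => by
    have e : y k (x k) = ∑ j ∈ univ.filter (fun j => kk j = k), a j := by
      simp only [y, ContinuousLinearMap.comp_apply, _root_.sum_apply, map_sum,
        _root_.smul_apply, map_smul, smul_eq_mul, sum_filter]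
      refine sum_congr rfl fun j _ => ?_
      simp only [co]
      split_ifs with h1 h2
      · simp only [ha, h1, one_mul, abs_of_nonneg h2]
      · simp only [ha, h1, neg_one_mul, abs_of_neg (not_le.1 h2)]
      · rw [zero_mul]
    rw [← e]
    exact (Real.le_norm_self _).trans
      (((y k).le_opNorm _).trans (mul_le_of_le_one_right (norm_nonneg _) (hx k)))
  have hys : ∀ ε : Fin n → Bool, ‖∑ k, sgn (ε k) • y k‖ ≤ lam := fun ε => by
    refine ContinuousLinearMap.opNorm_le_bound _ hl fun z => ?_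
    have e : (∑ k, sgn (ε k) • y k) z = φ (∑ j, (∑ k, sgn (ε k) * co k j) • T j z) := by
      simp only [y, _root_.sum_apply, _root_.smul_apply, ContinuousLinearMap.comp_apply, map_sum,
        map_smul, smul_eq_mul, sum_mul, mul_sum]
      rw [sum_comm]
      exact sum_congr rfl fun j _ => sum_congr rfl fun k _ => by ring
    rw [e]
    refine (φ.le_opNorm _).trans ((mul_le_of_le_one_left (norm_nonneg _) hφ).trans (hT.contract ?_ z))
    intro j
    simp only [co, mul_ite, mul_zero, Finset.sum_ite_eq, mem_univ, if_true]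
    split_ifs <;> simp [abs_sgn]
  have hatot : ∑ j, a j ≤ (n : ℝ) / (n : ℝ) ^ (1 / r) * (D * lam) := by
    rw [← sum_fiberwise_of_maps_to (g := kk) (t := univ) fun j _ => mem_univ _]
    exact (sum_le_sum fun k _ => hy k).trans (hD.sum_le hr hD0 hl hn y hys)
  have hs0 : ∀ j, 0 ≤ s j := fun j => sum_nonneg fun k _ => abs_nonneg _
  have hcs := Real.sum_sqrt_mul_sqrt_le (univ : Finset ι) (fun j => abs_nonneg (φ (T j (x (kk j))))) hs0
  calc (∑ j, quadSize (T j) x φ) ^ 2
      ≤ (Real.sqrt (∑ j, a j) * Real.sqrt (∑ j, s j)) ^ 2 := by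
        refine pow_le_pow_left₀ (sum_nonneg fun j _ => Real.sqrt_nonneg _) ?_ 2
        refine (sum_le_sum fun j _ => ?_).trans hcs
        exact (hB j).trans (le_of_eq (Real.sqrt_mul (abs_nonneg _) _))
    _ = (∑ j, a j) * ∑ j, s j := by
        rw [mul_pow, Real.sq_sqrt (sum_nonneg fun j _ => abs_nonneg _), Real.sq_sqrt (sum_nonneg fun j _ => hs0 j)]
    _ ≤ (n : ℝ) / (n : ℝ) ^ (1 / r) * (D * lam) * (lam * n) :=
        mul_le_mul hatot hstot (sum_nonneg fun j _ => hs0 j) (by positivity)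

/-- The main estimate. -/
theorem rank_growth {q C r D lam c : ℝ} {d : ℕ} (hX : HasCotype X q C)
    (hX' : HasCotype (X →L[ℝ] ℝ) r D) (hq : 1 ≤ q) (hr : 1 ≤ r) (hC : 0 ≤ C) (hD : 0 ≤ D)
    (hl : 0 ≤ lam) (hc : 0 < c) (hd : 0 < d) {T : ι → X →L[ℝ] X}
    (hfin : ∀ j, FiniteDimensional ℝ (LinearMap.range (T j).toLinearMap))
    (hrank : ∀ j, Module.finrank ℝ (LinearMap.range (T j).toLinearMap) ≤ d)
    (hT : SignBounded T lam) {x : Fin n → X} (hx : ∀ k, ‖x k‖ ≤ 1)
    (hlow : ∀ θ : Fin n → Bool, c * n ≤ ‖∑ k, sgn (θ k) • x k‖)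
    (happ : ∀ k, ‖(∑ j, T j (x k)) - x k‖ ≤ c / 2) :
    c ^ 2 * (n : ℝ) ^ (1 / r) ≤ 32 * D * d * lam ^ 2 * ((16 * C * lam / c) ^ q + 2) := by
  classical
  rcases Nat.eq_zero_or_pos n with rfl | hn
  · rw [Nat.cast_zero, Real.zero_rpow (by positivity), mul_zero]
    positivity
  have hn0 : (0 : ℝ) < n := by exact_mod_cast hn
  choose φ hφ hφe using fun θ : Fin n → Bool => exists_dual_vector'' ℝ (∑ k, sgn (θ k) • x k)
  choose M hM0 hM2 hdom using fun j => haveI := hfin j; exists_dom (T j) x (hrank j)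
  set N : ℕ := ⌈(16 * C * lam / c) ^ q⌉₊ + 1 with hN
  have hNr : (0 : ℝ) < N := by rw [hN]; push_cast; positivity
  have hNle : (N : ℝ) ≤ (16 * C * lam / c) ^ q + 2 := by
    have := Nat.ceil_lt_add_one (show 0 ≤ (16 * C * lam / c) ^ q by positivity)
    rw [hN]; push_cast; linarith
  have hNq : 16 * C * lam / c ≤ (N : ℝ) ^ (1 / q) := by
    have hz : 0 ≤ 16 * C * lam / c := by positivity
    have h := Real.rpow_le_rpow (Real.rpow_nonneg hz q)
      (show (16 * C * lam / c) ^ q ≤ N by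
        rw [hN]; push_cast; linarith [Nat.le_ceil ((16 * C * lam / c) ^ q)]) (by positivity : 0 ≤ 1 / q)
    rwa [← Real.rpow_mul hz, mul_one_div, div_self (by linarith), Real.rpow_one] at h
  set t := Real.sqrt (2 * N * d) with ht
  have ht2 : t ^ 2 = 2 * N * d := Real.sq_sqrt (by positivity)
  have htd : (0 : ℝ) < d := by exact_mod_cast hd
  have ht0 : 0 < t := Real.sqrt_pos.2 (by positivity)
  set I : ι → (Fin n → Bool) → ℝ := fun j θ => if t < M j θ then 1 else 0 with hI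
  have hp : ∀ j, (N : ℝ) * 𝔼 θ, I j θ ≤ 1 / 2 := fun j => by
    have h : (𝔼 θ, I j θ) ≤ d / t ^ 2 := by
      calc (𝔼 θ, I j θ) ≤ 𝔼 θ, M j θ ^ 2 / t ^ 2 := expect_le_expect fun θ _ => by
            simp only [hI]
            split_ifs with h
            · rw [one_le_div (by positivity)]; exact pow_le_pow_left₀ ht0.le h.le 2
            · positivity
        _ ≤ d / t ^ 2 := by
            rw [← expect_div, Fintype.expect_eq_sum_div_card]
            refine div_le_div_of_nonneg_right ?_ (by positivity)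
            rw [Fintype.card_fun, Fintype.card_bool, Fintype.card_fin, Nat.cast_pow, Nat.cast_ofNat,
              div_le_iff₀ (by positivity)]
            simpa [mul_comm] using hM2 j
    refine (mul_le_mul_of_nonneg_left h hNr.le).trans (le_of_eq ?_)
    rw [ht2]; field_simp
  have hbig := big_part_le hX hq hC hl hT hx φ hφ I (fun j θ => by simp only [hI]; split_ifs <;> norm_num)
    (fun j θ => by simp only [hI]; split_ifs <;> norm_num) (N := N) (by omega) hp
  set Φ := 𝔼 θ, ∑ j, I j θ * |φ θ (T j (∑ k, sgn (θ k) • x k))| with hΦ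
  have hΦle : Φ ≤ c * n / 8 := by
    refine hbig.trans ?_
    rw [div_le_iff₀ (by positivity)]
    rw [div_le_iff₀ hc] at hNq
    nlinarith
  have hB : ∀ θ, (∑ j, quadSize (T j) x (φ θ)) ≤
      Real.sqrt ((n : ℝ) / (n : ℝ) ^ (1 / r) * (D * lam) * (lam * n)) := fun θ =>
    Real.le_sqrt_of_sq_le (sum_quadSize_le hX' hr hD hl hT hx hn (hφ θ))
  set R := Real.sqrt ((n : ℝ) / (n : ℝ) ^ (1 / r) * (D * lam) * (lam * n)) with hR
  have hpt : ∀ θ, c * n / 2 ≤ (∑ j, I j θ * |φ θ (T j (∑ k, sgn (θ k) • x k))|) + t * R := by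
    intro θ
    have h1 : ‖(∑ j, T j (∑ k, sgn (θ k) • x k)) - ∑ k, sgn (θ k) • x k‖ ≤ n * (c / 2) := by
      simp only [map_sum, map_smul]
      rw [sum_comm, ← sum_sub_distrib]
      refine (norm_sum_le _ _).trans ((sum_le_sum (g := fun _ => c / 2) fun k _ => ?_).trans_eq (by simp))
      rw [← smul_sum, ← smul_sub, norm_smul, Real.norm_eq_abs, abs_sgn, one_mul]
      exact happ k
    have h2 : φ θ (∑ k, sgn (θ k) • x k) - ∑ j, φ θ (T j (∑ k, sgn (θ k) • x k)) ≤ n * (c / 2) := by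
      rw [← map_sum, ← map_sub]
      refine ((Real.le_norm_self _).trans ((φ θ).le_opNorm _)).trans
        ((mul_le_of_le_one_left (norm_nonneg _) (hφ θ)).trans ?_)
      rwa [norm_sub_rev]
    have h3 : φ θ (∑ k, sgn (θ k) • x k) = ‖∑ k, sgn (θ k) • x k‖ := by simpa using hφe θ
    have h4 : ∑ j, φ θ (T j (∑ k, sgn (θ k) • x k)) ≤
        (∑ j, I j θ * |φ θ (T j (∑ k, sgn (θ k) • x k))|) + t * ∑ j, quadSize (T j) x (φ θ) := by
      rw [mul_sum, ← sum_add_distrib]
      refine sum_le_sum fun j _ => (le_abs_self _).trans ?_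
      simp only [hI]
      split_ifs with h
      · rw [one_mul]; exact le_add_of_nonneg_right (mul_nonneg ht0.le (Real.sqrt_nonneg _))
      · rw [zero_mul, zero_add]
        exact (hdom j θ (φ θ)).trans (mul_le_mul_of_nonneg_right (not_lt.1 h) (Real.sqrt_nonneg _))
    have h5 := mul_le_mul_of_nonneg_left (hB θ) ht0.le
    have := hlow θ
    linarith
  have hmain : c * n / 4 ≤ t * R := by
    have h : c * n / 2 ≤ 𝔼 θ, ((∑ j, I j θ * |φ θ (T j (∑ k, sgn (θ k) • x k))|) + t * R) :=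
      le_expect univ_nonempty fun θ _ => hpt θ
    rw [expect_add_distrib, Fintype.expect_const, ← hΦ] at h
    nlinarith
  have h6 := pow_le_pow_left₀ (by positivity) hmain 2
  rw [mul_pow, ht2, hR, Real.sq_sqrt (by positivity)] at h6
  have hnr : 0 < (n : ℝ) ^ (1 / r) := Real.rpow_pos_of_pos hn0 _
  have h7 : c ^ 2 * (n : ℝ) ^ (1 / r) ≤ 32 * D * d * lam ^ 2 * N := by
    have := mul_le_mul_of_nonneg_left h6 (by positivity : (0:ℝ) ≤ 16 * (n : ℝ) ^ (1 / r) / n ^ 2)
    field_simp at this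
    nlinarith
  exact h7.trans (mul_le_mul_of_nonneg_left hNle (by positivity))

end Vale.Agent.P111
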